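import Mathlib

/-!
# ROW 252 (S0492), unit S4T: CONTRACT of the precise finite-scale parts of Sec. 4      (architect helper151)

Paper: `04-critical-paths.tex` l.858-1250 (reports 818, 819 of helper269).  MATHLIB ONLY, independent of the base language of T3.  Prefix `k4_` / `k4` / `K4`.
* **T1** `a03:finite-state-conditioning` (l.858-980), finite-scale form: `k4_trunc`, `k4_floor`, `k4_coarse`, `k4_prune`.
  Parents `A : α` with weights `p`, laws `R A E b` on two finite labels, appended label `d`, coarser state `c A E d : γ`.  No `o(1)`: explicit `M, K1, K2`.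
* **T2** `a03:time-slice` (l.1003-1036), `lintegral` form, `n` equal time intervals: `k4_slice_delete`, `k4_slice_cap`, `k4_slice_inst`.
* **T5a** `a03:actual-lists`, first half (l.1133-1190): `k4_table`.  The joint law on `base × observed entry × output label` is the family `lam o a : Measure X`.
* **AV** `a03:axis-variation`, `a03:joint-tv` (l.1191-1235): `k4_av_line` (breakpoints on a line), `k4_av_sign` (sign vectors of polynomials), `k4_av_box` (Fubini), `k4_av_cell` (cell averaging).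
* **QE** explicit quantifier elimination for one quadratic / one affine function on an interval (l.1688): `k4_qe_quad`, `k4_qe_aff`.
The leaves are registered as `L-252-S4T-*`; every statement is proved IN PLACE (helper lemmas directly above it, prefix `k4_`).
-/

set_option autoImplicit false

namespace Claimed.Agent.R252

open scoped BigOperators ENNReal
open MeasureTheory

noncomputable section

/-! ## T1: likelihood truncation and finite-state conditioning -/

section T1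

variable {α ε β δ γ : Type} [Fintype α] [Fintype ε] [Fintype β] [Fintype δ] [Fintype γ] [DecidableEq γ]

/-- the `E`-marginal `λ_{A,pre}(E)` -/
def k4Pre (R : α → ε → β → ℝ) (A : α) (E : ε) : ℝ := ∑ b, R A E b

/-- the palette `π_A(b)` -/
def k4Pi (R : α → ε → β → ℝ) (A : α) (b : β) : ℝ := ∑ E, R A E b

/-- the mixture mutual information `∑_A p_A ∑_{E,b} R log (R / (pre π))` -/
def k4Info (p : α → ℝ) (R : α → ε → β → ℝ) : ℝ :=
  ∑ A, p A * ∑ E, ∑ b, R A E b * Real.log (R A E b / (k4Pre R A E * k4Pi R A b))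

/-- the truncated joint submeasure `R_{A,good}` at likelihood level `M` -/
def k4Good (M : ℝ) (R : α → ε → β → ℝ) (A : α) (E : ε) (b : β) : ℝ :=
  if R A E b ≤ M * (k4Pre R A E * k4Pi R A b) then R A E b else 0

/-- a mixture of (sub)probability laws on two finite labels -/
structure K4Mix (p : α → ℝ) (R : α → ε → β → ℝ) : Prop where
  p_nonneg : ∀ A, 0 ≤ p A
  p_sum : ∑ A, p A ≤ 1
  R_nonneg : ∀ A E b, 0 ≤ R A E b
  R_sum : ∀ A, ∑ E, ∑ b, R A E b ≤ 1

/-- the appended-entry masses `m_{A,preomit}(E,d')` -/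
def k4M (R2 : α → ε → δ → β → ℝ) (A : α) (E : ε) (d : δ) : ℝ := ∑ b, R2 A E d b

/-- keep only the entries with `m(E,d') ≥ pre(E)/K1` : the measure `R_{A,3}` -/
def k4Keep (K1 : ℝ) (R : α → ε → β → ℝ) (R2 : α → ε → δ → β → ℝ) (A : α) (E : ε) (d : δ) (b : β) : ℝ :=
  if k4Pre R A E / K1 ≤ k4M R2 A E d then R2 A E d b else 0

/-- the reference weight `w_A(C)` of the coarser state -/
def k4W (c : α → ε → δ → γ) (R2 : α → ε → δ → β → ℝ) (A : α) (C : γ) : ℝ :=
  ∑ E, ∑ d, if c A E d = C then k4M R2 A E d else 0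

/-- the `(C,b)`-marginal of a measure on `(E,d',b)` -/
def k4CB (c : α → ε → δ → γ) (T : α → ε → δ → β → ℝ) (A : α) (C : γ) (b : β) : ℝ :=
  ∑ E, ∑ d, if c A E d = C then T A E d b else 0

/-- the `C`-marginal of a measure on `(E,d',b)` -/
def k4C (c : α → ε → δ → γ) (T : α → ε → δ → β → ℝ) (A : α) (C : γ) : ℝ := ∑ b, k4CB c T A C b

/-- discard the states with `T_A(C) < w_A(C)/K2` -/
def k4Prune (K2 : ℝ) (c : α → ε → δ → γ) (R2 T : α → ε → δ → β → ℝ) (A : α) (E : ε) (d : δ) (b : β) : ℝ :=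
  if k4W c R2 A (c A E d) / K2 ≤ k4C c T A (c A E d) then T A E d b else 0

theorem k4_trunc_pt {R pre q M : ℝ} (hM : 1 < M) (hR : 0 ≤ R) (h1 : R ≤ pre) (h2 : R ≤ q) :
    Real.log M * (R - if R ≤ M * (pre * q) then R else 0) ≤ R * Real.log (R / (pre * q)) + pre * q := by
  have hlog : 0 < Real.log M := Real.log_pos hM
  rcases hR.eq_or_lt with rfl | hR'
  · have h3 : (0 : ℝ) ≤ pre * q := mul_nonneg h1 h2
    simpa using h3
  · have hpre : 0 < pre := lt_of_lt_of_le hR' h1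
    have hq : 0 < q := lt_of_lt_of_le hR' h2
    have hprod : 0 < pre * q := mul_pos hpre hq
    split_ifs with hc
    · rw [sub_self, mul_zero]
      have h3 := Real.log_le_sub_one_of_pos (div_pos hprod hR')
      have e : Real.log (R / (pre * q)) = - Real.log (pre * q / R) := by rw [← Real.log_inv, inv_div]
      rw [e]
      have h4 : R * Real.log (pre * q / R) ≤ R * (pre * q / R - 1) := mul_le_mul_of_nonneg_left h3 hR
      have e2 : R * (pre * q / R - 1) = pre * q - R := by field_simp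
      rw [e2] at h4
      linarith
    · push Not at hc
      rw [sub_zero]
      have h3 : M ≤ R / (pre * q) := by
        rw [le_div_iff₀ hprod]
        exact hc.le
      have h4 := Real.log_le_log (by linarith) h3
      nlinarith

theorem k4_trunc_prod {R : α → ε → β → ℝ} (h0 : ∀ A E b, 0 ≤ R A E b) (h1 : ∀ A, ∑ E, ∑ b, R A E b ≤ 1) (A : α) :
    ∑ E, ∑ b, k4Pre R A E * k4Pi R A b ≤ 1 := by
  have e1 : ∑ E, ∑ b, k4Pre R A E * k4Pi R A b = (∑ E, k4Pre R A E) * ∑ b, k4Pi R A b := by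
    rw [Finset.sum_mul_sum]
  have e2 : ∑ b, k4Pi R A b = ∑ E, ∑ b, R A E b := by
    unfold k4Pi
    rw [Finset.sum_comm]
  have e3 : ∑ E, k4Pre R A E = ∑ E, ∑ b, R A E b := rfl
  rw [e1, e2, e3]
  have h2 : 0 ≤ ∑ E, ∑ b, R A E b := Finset.sum_nonneg fun E _ => Finset.sum_nonneg fun b _ => h0 A E b
  nlinarith [h1 A]

theorem k4_trunc_one {R : α → ε → β → ℝ} (h0 : ∀ A E b, 0 ≤ R A E b) (h1 : ∀ A, ∑ E, ∑ b, R A E b ≤ 1) {M : ℝ} (hM : 1 < M) (A : α) :
    Real.log M * ∑ E, ∑ b, (R A E b - k4Good M R A E b)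
      ≤ ∑ E, ∑ b, R A E b * Real.log (R A E b / (k4Pre R A E * k4Pi R A b)) + 1 := by
  calc Real.log M * ∑ E, ∑ b, (R A E b - k4Good M R A E b)
      = ∑ E, ∑ b, Real.log M * (R A E b - k4Good M R A E b) := by
        rw [Finset.mul_sum]
        exact Finset.sum_congr rfl fun E _ => Finset.mul_sum _ _ _
    _ ≤ ∑ E, ∑ b, (R A E b * Real.log (R A E b / (k4Pre R A E * k4Pi R A b)) + k4Pre R A E * k4Pi R A b) := by
        refine Finset.sum_le_sum fun E _ => Finset.sum_le_sum fun b _ => ?_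
        unfold k4Good
        refine k4_trunc_pt hM (h0 A E b) ?_ ?_
        · exact Finset.single_le_sum (f := fun b => R A E b) (fun b _ => h0 A E b) (Finset.mem_univ b)
        · exact Finset.single_le_sum (f := fun E => R A E b) (fun E _ => h0 A E b) (Finset.mem_univ E)
    _ = ∑ E, ∑ b, R A E b * Real.log (R A E b / (k4Pre R A E * k4Pi R A b)) + ∑ E, ∑ b, k4Pre R A E * k4Pi R A b := by
        rw [← Finset.sum_add_distrib]
        exact Finset.sum_congr rfl fun E _ => Finset.sum_add_distrib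
    _ ≤ _ := by
        have := k4_trunc_prod h0 h1 A
        linarith

/-- **LEAF L-252-S4T-T1a** (l.898-925).  Deleting the pairs with likelihood ratio `> M` costs at most `(I + 1)/log M` mixture mass.
PROOF.  `prod := pre * π`.  Pointwise `R log (R/prod) ≥ R - prod ≥ - prod` (`Real.log_le_sub_one_of_pos` for `prod/R`; if `R = 0` trivial; `R > 0` forces `pre, π ≥ R > 0`), `∑ prod = (∑ pre)(∑ π) ≤ 1`.
On the deleted pairs `R log (R/prod) ≥ R log M`.  Hence `log M * deleted_A ≤ ∑ R log(R/prod) + 1` for each `A`; multiply by `p A`, sum, `∑ p ≤ 1`. -/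
theorem k4_trunc {p : α → ℝ} {R : α → ε → β → ℝ} (h : K4Mix p R) {M : ℝ} (hM : 1 < M) :
    ∑ A, p A * ∑ E, ∑ b, (R A E b - k4Good M R A E b) ≤ (k4Info p R + 1) / Real.log M := by
  have hlog : 0 < Real.log M := Real.log_pos hM
  rw [le_div_iff₀ hlog]
  calc (∑ A, p A * ∑ E, ∑ b, (R A E b - k4Good M R A E b)) * Real.log M
      = ∑ A, p A * (Real.log M * ∑ E, ∑ b, (R A E b - k4Good M R A E b)) := by
        rw [Finset.sum_mul]
        exact Finset.sum_congr rfl fun A _ => by ring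
    _ ≤ ∑ A, p A * (∑ E, ∑ b, R A E b * Real.log (R A E b / (k4Pre R A E * k4Pi R A b)) + 1) :=
        Finset.sum_le_sum fun A _ => mul_le_mul_of_nonneg_left (k4_trunc_one h.R_nonneg h.R_sum hM A) (h.p_nonneg A)
    _ = k4Info p R + ∑ A, p A := by
        unfold k4Info
        rw [← Finset.sum_add_distrib]
        exact Finset.sum_congr rfl fun A _ => by ring
    _ ≤ k4Info p R + 1 := by
        have := h.p_sum
        linarith

theorem k4_pre_nonneg {R : α → ε → β → ℝ} (h0 : ∀ A E b, 0 ≤ R A E b) (A : α) (E : ε) : 0 ≤ k4Pre R A E :=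
  Finset.sum_nonneg fun b _ => h0 A E b

theorem k4_pi_nonneg {R : α → ε → β → ℝ} (h0 : ∀ A E b, 0 ≤ R A E b) (A : α) (b : β) : 0 ≤ k4Pi R A b :=
  Finset.sum_nonneg fun E _ => h0 A E b

theorem k4_floor_d {R : α → ε → β → ℝ} (hR0 : ∀ A E b, 0 ≤ R A E b) {K1 : ℝ} (hK1 : 0 < K1) (R2 : α → ε → δ → β → ℝ) (A : α) (E : ε) (d : δ) :
    ∑ b, (R2 A E d b - k4Keep K1 R R2 A E d b) ≤ if k4M R2 A E d ≠ 0 then k4Pre R A E / K1 else 0 := by
  have hp : 0 ≤ k4Pre R A E / K1 := div_nonneg (k4_pre_nonneg hR0 A E) hK1.le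
  unfold k4Keep
  by_cases hc : k4Pre R A E / K1 ≤ k4M R2 A E d
  · simp only [if_pos hc, sub_self, Finset.sum_const_zero]
    split_ifs
    · exact hp
    · exact le_rfl
  · simp only [if_neg hc, sub_zero]
    push Not at hc
    split_ifs with h1
    · exact hc.le
    · push Not at h1
      exact h1.le

theorem k4_floor_E {R : α → ε → β → ℝ} (hR0 : ∀ A E b, 0 ≤ R A E b) {K1 : ℝ} (hK1 : 0 < K1) (D : ℕ) (R2 : α → ε → δ → β → ℝ)
    (hD : ∀ A E, (Finset.univ.filter fun d => k4M R2 A E d ≠ 0).card ≤ D) (A : α) (E : ε) :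
    ∑ d, ∑ b, (R2 A E d b - k4Keep K1 R R2 A E d b) ≤ D / K1 * k4Pre R A E := by
  have hp : 0 ≤ k4Pre R A E / K1 := div_nonneg (k4_pre_nonneg hR0 A E) hK1.le
  calc ∑ d, ∑ b, (R2 A E d b - k4Keep K1 R R2 A E d b)
      ≤ ∑ d, if k4M R2 A E d ≠ 0 then k4Pre R A E / K1 else 0 := Finset.sum_le_sum fun d _ => k4_floor_d hR0 hK1 R2 A E d
    _ = ((Finset.univ.filter fun d => k4M R2 A E d ≠ 0).card : ℝ) * (k4Pre R A E / K1) := by
        rw [← Finset.sum_filter, Finset.sum_const, nsmul_eq_mul]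
    _ ≤ (D : ℝ) * (k4Pre R A E / K1) := mul_le_mul_of_nonneg_right (by exact_mod_cast hD A E) hp
    _ = D / K1 * k4Pre R A E := by ring

theorem k4_good_le {R : α → ε → β → ℝ} (hR0 : ∀ A E b, 0 ≤ R A E b) {M : ℝ} (hM : 0 ≤ M) (A : α) (E : ε) (b : β) :
    k4Good M R A E b ≤ M * (k4Pre R A E * k4Pi R A b) := by
  unfold k4Good
  split_ifs with hc
  · exact hc
  · exact mul_nonneg hM (mul_nonneg (k4_pre_nonneg hR0 A E) (k4_pi_nonneg hR0 A b))

/-- **LEAF L-252-S4T-T1b** (l.927-955).  Appended label with at most `D` possibilities per `E`: the floor `m(E,d') ≥ pre(E)/K1` costs `≤ D/K1`, and gives the joint ceiling with multiplier `M K1`.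
PROOF.  Deleted mass in the parent `A` : `∑_E ∑_{d : 0 ≠ m < pre/K1} m ≤ ∑_E D pre(E)/K1 ≤ D/K1`.   Ceiling: `Keep ≤ R2 A E d b ≤ ∑_d R2 ≤ Good ≤ M pre π ≤ M K1 m π`. -/
theorem k4_floor {p : α → ℝ} {R : α → ε → β → ℝ} (h : K4Mix p R) {M K1 : ℝ} (hM : 0 ≤ M) (hK1 : 0 < K1) (D : ℕ)
    (R2 : α → ε → δ → β → ℝ) (h0 : ∀ A E d b, 0 ≤ R2 A E d b) (hdom : ∀ A E b, ∑ d, R2 A E d b ≤ k4Good M R A E b)
    (hD : ∀ A E, (Finset.univ.filter fun d => k4M R2 A E d ≠ 0).card ≤ D) :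
    (∑ A, p A * ∑ E, ∑ d, ∑ b, (R2 A E d b - k4Keep K1 R R2 A E d b) ≤ D / K1) ∧
      ∀ A E d b, k4Keep K1 R R2 A E d b ≤ M * K1 * k4Pi R A b * k4M R2 A E d := by
  have hDK : 0 ≤ (D : ℝ) / K1 := div_nonneg (Nat.cast_nonneg _) hK1.le
  refine ⟨?_, fun A E d b => ?_⟩
  · calc ∑ A, p A * ∑ E, ∑ d, ∑ b, (R2 A E d b - k4Keep K1 R R2 A E d b)
        ≤ ∑ A, p A * (D / K1) := by
          refine Finset.sum_le_sum fun A _ => mul_le_mul_of_nonneg_left ?_ (h.p_nonneg A)
          calc ∑ E, ∑ d, ∑ b, (R2 A E d b - k4Keep K1 R R2 A E d b)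
              ≤ ∑ E, D / K1 * k4Pre R A E := Finset.sum_le_sum fun E _ => k4_floor_E h.R_nonneg hK1 D R2 hD A E
            _ = D / K1 * ∑ E, ∑ b, R A E b := by
                rw [← Finset.mul_sum]
                rfl
            _ ≤ D / K1 * 1 := mul_le_mul_of_nonneg_left (h.R_sum A) hDK
            _ = D / K1 := mul_one _
      _ = (∑ A, p A) * (D / K1) := by rw [Finset.sum_mul]
      _ ≤ 1 * (D / K1) := mul_le_mul_of_nonneg_right h.p_sum hDK
      _ = D / K1 := one_mul _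
  · have hm : 0 ≤ k4M R2 A E d := Finset.sum_nonneg fun b _ => h0 A E d b
    have hpi := k4_pi_nonneg h.R_nonneg A b
    unfold k4Keep
    split_ifs with hc
    · have h1 : R2 A E d b ≤ ∑ d, R2 A E d b :=
        Finset.single_le_sum (f := fun d => R2 A E d b) (fun d _ => h0 A E d b) (Finset.mem_univ d)
      have h2 := k4_good_le h.R_nonneg hM A E b
      have h3 : k4Pre R A E ≤ k4M R2 A E d * K1 := (div_le_iff₀ hK1).1 hc
      calc R2 A E d b ≤ M * (k4Pre R A E * k4Pi R A b) := h1.trans ((hdom A E b).trans h2)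
        _ ≤ M * (k4M R2 A E d * K1 * k4Pi R A b) :=
            mul_le_mul_of_nonneg_left (mul_le_mul_of_nonneg_right h3 hpi) hM
        _ = M * K1 * k4Pi R A b * k4M R2 A E d := by ring
    · exact mul_nonneg (mul_nonneg (mul_nonneg hM hK1.le) hpi) hm

/-- **LEAF L-252-S4T-T1c** (l.957-966).  The ceilings sum to any coarser state. -/
theorem k4_coarse {R : α → ε → β → ℝ} {M K1 : ℝ} (R2 : α → ε → δ → β → ℝ) (c : α → ε → δ → γ)
    (hc : ∀ A E d b, k4Keep K1 R R2 A E d b ≤ M * K1 * k4Pi R A b * k4M R2 A E d) (A : α) (C : γ) (b : β) :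
    k4CB c (k4Keep K1 R R2) A C b ≤ M * K1 * k4Pi R A b * k4W c R2 A C := by
  unfold k4CB k4W
  rw [Finset.mul_sum]
  refine Finset.sum_le_sum fun E _ => ?_
  rw [Finset.mul_sum]
  refine Finset.sum_le_sum fun d _ => ?_
  split_ifs
  · exact hc A E d b
  · simp

theorem k4_prune_W_nonneg (R2 : α → ε → δ → β → ℝ) (c : α → ε → δ → γ) (h0 : ∀ A E d b, 0 ≤ R2 A E d b) (A : α) (C : γ) :
    0 ≤ k4W c R2 A C := by
  unfold k4W
  refine Finset.sum_nonneg fun E _ => Finset.sum_nonneg fun d _ => ?_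
  split_ifs
  · exact Finset.sum_nonneg fun b _ => h0 A E d b
  · exact le_rfl

theorem k4_prune_W_sum (R2 : α → ε → δ → β → ℝ) (c : α → ε → δ → γ) (A : α) :
    ∑ C, k4W c R2 A C = ∑ E, ∑ d, k4M R2 A E d := by
  unfold k4W
  rw [Finset.sum_comm]
  refine Finset.sum_congr rfl fun E _ => ?_
  rw [Finset.sum_comm]
  refine Finset.sum_congr rfl fun d _ => ?_
  rw [Finset.sum_ite_eq, if_pos (Finset.mem_univ _)]

theorem k4_prune_mass {p : α → ℝ} {R : α → ε → β → ℝ} (h : K4Mix p R) {M : ℝ} (R2 : α → ε → δ → β → ℝ)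
    (hdom : ∀ A E b, ∑ d, R2 A E d b ≤ k4Good M R A E b) (A : α) : ∑ E, ∑ d, k4M R2 A E d ≤ 1 := by
  refine le_trans ?_ (h.R_sum A)
  refine Finset.sum_le_sum fun E _ => ?_
  unfold k4M
  rw [Finset.sum_comm]
  refine Finset.sum_le_sum fun b _ => ?_
  refine (hdom A E b).trans ?_
  unfold k4Good
  split_ifs
  · exact le_rfl
  · exact h.R_nonneg A E b

theorem k4_prune_C_eq (c : α → ε → δ → γ) (T : α → ε → δ → β → ℝ) (A : α) (C : γ) :
    k4C c T A C = ∑ E, ∑ d, if c A E d = C then ∑ b, T A E d b else 0 := by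
  unfold k4C k4CB
  rw [Finset.sum_comm]
  refine Finset.sum_congr rfl fun E _ => ?_
  rw [Finset.sum_comm]
  refine Finset.sum_congr rfl fun d _ => ?_
  split_ifs
  · rfl
  · simp

theorem k4_prune_del (K2 : ℝ) (c : α → ε → δ → γ) (R2 T : α → ε → δ → β → ℝ) (A : α) :
    ∑ E, ∑ d, ∑ b, (T A E d b - k4Prune K2 c R2 T A E d b) =
      ∑ C, if k4W c R2 A C / K2 ≤ k4C c T A C then 0 else k4C c T A C := by
  have e1 : ∀ E d, ∑ b, (T A E d b - k4Prune K2 c R2 T A E d b) =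
      ∑ C, if c A E d = C then (if k4W c R2 A C / K2 ≤ k4C c T A C then 0 else ∑ b, T A E d b) else 0 := by
    intro E d
    rw [Finset.sum_ite_eq, if_pos (Finset.mem_univ _)]
    unfold k4Prune
    split_ifs with h1
    · simp
    · simp
  simp only [e1]
  calc ∑ E, ∑ d, ∑ C, (if c A E d = C then (if k4W c R2 A C / K2 ≤ k4C c T A C then 0 else ∑ b, T A E d b) else 0)
      = ∑ E, ∑ C, ∑ d, (if c A E d = C then (if k4W c R2 A C / K2 ≤ k4C c T A C then 0 else ∑ b, T A E d b) else 0) :=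
        Finset.sum_congr rfl fun E _ => Finset.sum_comm
    _ = ∑ C, ∑ E, ∑ d, (if c A E d = C then (if k4W c R2 A C / K2 ≤ k4C c T A C then 0 else ∑ b, T A E d b) else 0) :=
        Finset.sum_comm
    _ = ∑ C, if k4W c R2 A C / K2 ≤ k4C c T A C then 0 else k4C c T A C := by
        refine Finset.sum_congr rfl fun C _ => ?_
        by_cases hC : k4W c R2 A C / K2 ≤ k4C c T A C
        · simp only [if_pos hC, ite_self, Finset.sum_const_zero]
        · simp only [if_neg hC]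
          exact (k4_prune_C_eq c T A C).symm

/-- **LEAF L-252-S4T-T1d** (l.968-980).  Denominator pruning for a further restriction `T ≤ R_3`: cost `≤ 1/K2`, conditional cap `T(b|C) ≤ M K1 K2 π(b)` (written without division).
PROOF.  Deleted mass in `A` : `∑_{C : T(C) < w(C)/K2} T(C) ≤ ∑_C w(C)/K2`, `∑_C w(C) = ∑ R2 ≤ ∑ Good ≤ ∑ R ≤ 1`.   Cap: `T(C,b) ≤ R_3(C,b) ≤ M K1 π w(C) ≤ M K1 K2 π T(C)` (`k4_coarse`). -/
theorem k4_prune {p : α → ℝ} {R : α → ε → β → ℝ} (h : K4Mix p R) {M K1 K2 : ℝ} (hM : 0 ≤ M) (hK1 : 0 < K1) (hK2 : 0 < K2)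
    (R2 T : α → ε → δ → β → ℝ) (c : α → ε → δ → γ) (h0 : ∀ A E d b, 0 ≤ R2 A E d b)
    (hdom : ∀ A E b, ∑ d, R2 A E d b ≤ k4Good M R A E b)
    (hc : ∀ A E d b, k4Keep K1 R R2 A E d b ≤ M * K1 * k4Pi R A b * k4M R2 A E d)
    (hT0 : ∀ A E d b, 0 ≤ T A E d b) (hT : ∀ A E d b, T A E d b ≤ k4Keep K1 R R2 A E d b) :
    (∑ A, p A * ∑ E, ∑ d, ∑ b, (T A E d b - k4Prune K2 c R2 T A E d b) ≤ 1 / K2) ∧
      ∀ A C b, k4W c R2 A C / K2 ≤ k4C c T A C → k4CB c T A C b ≤ M * K1 * K2 * k4Pi R A b * k4C c T A C := by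
  constructor
  · have hA : ∀ A, ∑ E, ∑ d, ∑ b, (T A E d b - k4Prune K2 c R2 T A E d b) ≤ 1 / K2 := by
      intro A
      rw [k4_prune_del]
      have h1 : ∑ C, (if k4W c R2 A C / K2 ≤ k4C c T A C then 0 else k4C c T A C) ≤ ∑ C, k4W c R2 A C / K2 := by
        refine Finset.sum_le_sum fun C _ => ?_
        split_ifs with hC
        · exact div_nonneg (k4_prune_W_nonneg R2 c h0 A C) hK2.le
        · exact (not_le.1 hC).le
      refine h1.trans ?_
      rw [← Finset.sum_div, k4_prune_W_sum]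
      exact div_le_div_of_nonneg_right (k4_prune_mass h R2 hdom A) hK2.le
    calc ∑ A, p A * ∑ E, ∑ d, ∑ b, (T A E d b - k4Prune K2 c R2 T A E d b)
        ≤ ∑ A, p A * (1 / K2) := Finset.sum_le_sum fun A _ => mul_le_mul_of_nonneg_left (hA A) (h.p_nonneg A)
      _ = (∑ A, p A) * (1 / K2) := by rw [Finset.sum_mul]
      _ ≤ 1 * (1 / K2) := mul_le_mul_of_nonneg_right h.p_sum (by positivity)
      _ = 1 / K2 := one_mul _
  · intro A C b hC
    have h1 : k4CB c T A C b ≤ k4CB c (k4Keep K1 R R2) A C b := by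
      unfold k4CB
      refine Finset.sum_le_sum fun E _ => Finset.sum_le_sum fun d _ => ?_
      split_ifs
      · exact hT A E d b
      · exact le_rfl
    have h2 := k4_coarse R2 c hc A C b
    have h3 : k4W c R2 A C ≤ K2 * k4C c T A C := by
      rw [div_le_iff₀ hK2] at hC
      linarith
    have hπ : 0 ≤ k4Pi R A b := Finset.sum_nonneg fun E _ => h.R_nonneg A E b
    have h4 : M * K1 * k4Pi R A b * k4W c R2 A C ≤ M * K1 * k4Pi R A b * (K2 * k4C c T A C) :=
      mul_le_mul_of_nonneg_left h3 (mul_nonneg (mul_nonneg hM hK1.le) hπ)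
    calc k4CB c T A C b ≤ M * K1 * k4Pi R A b * (K2 * k4C c T A C) := h1.trans (h2.trans h4)
      _ = M * K1 * K2 * k4Pi R A b * k4C c T A C := by ring

end T1

/-! ## T2: retained duration and fixed-time prior caps -/

section T2

variable {Ω : Type} [MeasurableSpace Ω]

/-- the `k`-th of `n` equal time intervals of `(0,1]` -/
def k4I (n k : ℕ) : Set ℝ := Set.Ioc ((k : ℝ) / n) (((k : ℝ) + 1) / n)

/-- the trajectories with retained duration `≥ |I|/K2` on the `k`-th interval -/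
def k4L (G : Ω → ℝ → ℝ≥0∞) (K2 : ℝ≥0∞) (n k : ℕ) : Set Ω := {l | (n : ℝ≥0∞)⁻¹ / K2 ≤ ∫⁻ τ in k4I n k, G l τ}

/-- **LEAF L-252-S4T-T2a**.  Deleting the line-interval pairs of short duration costs `≤ 1/K2`.
PROOF.  `k4L` is measurable (`Measurable.lintegral_prod_right'`); on the complement the inner integral is `≤ n⁻¹/K2`; `ν` is a probability; `n` terms. -/
theorem k4_slice_delete (ν : Measure Ω) [IsProbabilityMeasure ν] (G : Ω → ℝ → ℝ≥0∞) (hG : Measurable (Function.uncurry G))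
    (K2 : ℝ≥0∞) (n : ℕ) (hn : 0 < n) :
    ∑ k ∈ Finset.range n, ∫⁻ l in (k4L G K2 n k)ᶜ, (∫⁻ τ in k4I n k, G l τ) ∂ν ≤ K2⁻¹ := by
  have hφ : ∀ k, Measurable fun l => ∫⁻ τ in k4I n k, G l τ := fun k =>
    Measurable.lintegral_prod_right' (ν := volume.restrict (k4I n k)) hG
  have hL : ∀ k, MeasurableSet (k4L G K2 n k) := fun k => measurableSet_le measurable_const (hφ k)
  have h1 : ∀ k ∈ Finset.range n, ∫⁻ l in (k4L G K2 n k)ᶜ, (∫⁻ τ in k4I n k, G l τ) ∂ν ≤ (n : ℝ≥0∞)⁻¹ / K2 := by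
    intro k _
    calc ∫⁻ l in (k4L G K2 n k)ᶜ, (∫⁻ τ in k4I n k, G l τ) ∂ν
        ≤ ∫⁻ _ in (k4L G K2 n k)ᶜ, (n : ℝ≥0∞)⁻¹ / K2 ∂ν := by
          refine setLIntegral_mono' (hL k).compl fun l hl => ?_
          have hl' : ¬ ((n : ℝ≥0∞)⁻¹ / K2 ≤ ∫⁻ τ in k4I n k, G l τ) := hl
          exact (not_le.1 hl').le
      _ = (n : ℝ≥0∞)⁻¹ / K2 * ν (k4L G K2 n k)ᶜ := by rw [setLIntegral_const]
      _ ≤ (n : ℝ≥0∞)⁻¹ / K2 * 1 := by gcongr; exact prob_le_one
      _ = (n : ℝ≥0∞)⁻¹ / K2 := mul_one _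
  calc ∑ k ∈ Finset.range n, ∫⁻ l in (k4L G K2 n k)ᶜ, (∫⁻ τ in k4I n k, G l τ) ∂ν
      ≤ ∑ _k ∈ Finset.range n, (n : ℝ≥0∞)⁻¹ / K2 := Finset.sum_le_sum h1
    _ = (n : ℝ≥0∞) * ((n : ℝ≥0∞)⁻¹ / K2) := by rw [Finset.sum_const, Finset.card_range, nsmul_eq_mul]
    _ = K2⁻¹ := by
      rw [div_eq_mul_inv, ← mul_assoc, ENNReal.mul_inv_cancel (by exact_mod_cast hn.ne') (ENNReal.natCast_ne_top n), one_mul]

/-- **LEAF L-252-S4T-T2b** = (a03:retained-duration-cap).  `Ct` need not be measurable.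
PROOF.  `φ l := ∫⁻ τ in I, 1_{Cp τ}(l) G l τ` is measurable, `≥ n⁻¹/K2` on `L ∩ Ct`; Markov (`mul_meas_ge_le_lintegral`), Tonelli (`lintegral_lintegral_swap`). -/
theorem k4_slice_cap (ν : Measure Ω) [IsProbabilityMeasure ν] (G : Ω → ℝ → ℝ≥0∞) (hG : Measurable (Function.uncurry G))
    (K2 : ℝ≥0∞) (hK2 : K2 ≠ 0) (hK2' : K2 ≠ ⊤) (n k : ℕ) (hn : 0 < n) (Ct : Set Ω) (Cp : ℝ → Set Ω)
    (hCp : MeasurableSet {q : Ω × ℝ | q.1 ∈ Cp q.2}) (himp : ∀ τ ∈ k4I n k, Ct ⊆ Cp τ) :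
    ν (k4L G K2 n k ∩ Ct) ≤ K2 * n * ∫⁻ τ in k4I n k, (∫⁻ l in Cp τ, G l τ ∂ν) := by
  set F : Ω × ℝ → ℝ≥0∞ := Set.indicator {q : Ω × ℝ | q.1 ∈ Cp q.2} (Function.uncurry G) with hF
  have hFm : Measurable F := hG.indicator hCp
  set φ : Ω → ℝ≥0∞ := fun l => ∫⁻ τ in k4I n k, F (l, τ) with hφd
  have hφ : Measurable φ := Measurable.lintegral_prod_right' (ν := volume.restrict (k4I n k)) hFm
  set c : ℝ≥0∞ := (n : ℝ≥0∞)⁻¹ / K2 with hc
  have hI : MeasurableSet (k4I n k) := measurableSet_Ioc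
  have hsub : k4L G K2 n k ∩ Ct ⊆ {l | c ≤ φ l} := by
    rintro l ⟨hl, hlC⟩
    have : φ l = ∫⁻ τ in k4I n k, G l τ := by
      refine setLIntegral_congr_fun hI fun τ hτ => ?_
      have : (l, τ) ∈ {q : Ω × ℝ | q.1 ∈ Cp q.2} := himp τ hτ hlC
      simp only [hF, Set.indicator_of_mem this, Function.uncurry_apply_pair]
    show c ≤ φ l
    rw [this]
    exact hl
  have hmk : c * ν {l | c ≤ φ l} ≤ ∫⁻ l, φ l ∂ν := mul_meas_ge_le_lintegral hφ c
  have hsw : ∫⁻ l, φ l ∂ν = ∫⁻ τ in k4I n k, (∫⁻ l in Cp τ, G l τ ∂ν) := by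
    rw [hφd, lintegral_lintegral_swap (f := fun l τ => F (l, τ)) (by
      have : (Function.uncurry fun l τ => F (l, τ)) = F := by
        funext q
        rfl
      rw [this]
      exact hFm.aemeasurable)]
    refine lintegral_congr fun τ => ?_
    have hm : MeasurableSet (Cp τ) := (measurable_prodMk_right (y := τ)) hCp
    rw [← lintegral_indicator hm]
    refine lintegral_congr fun l => ?_
    by_cases h : l ∈ Cp τ
    · have : (l, τ) ∈ {q : Ω × ℝ | q.1 ∈ Cp q.2} := h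
      simp only [hF, Set.indicator_of_mem this, Set.indicator_of_mem h, Function.uncurry_apply_pair]
    · have : (l, τ) ∉ {q : Ω × ℝ | q.1 ∈ Cp q.2} := h
      simp only [hF, Set.indicator_of_notMem this, Set.indicator_of_notMem h]
  have hn0 : (n : ℝ≥0∞) ≠ 0 := by exact_mod_cast hn.ne'
  have hone : K2 * n * c = 1 := by
    rw [hc, div_eq_mul_inv]
    calc K2 * n * ((n : ℝ≥0∞)⁻¹ * K2⁻¹) = (K2 * K2⁻¹) * ((n : ℝ≥0∞) * (n : ℝ≥0∞)⁻¹) := by ring
      _ = 1 := by rw [ENNReal.mul_inv_cancel hK2 hK2', ENNReal.mul_inv_cancel hn0 (ENNReal.natCast_ne_top n), one_mul]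
  calc ν (k4L G K2 n k ∩ Ct) ≤ ν {l | c ≤ φ l} := measure_mono hsub
    _ = K2 * n * c * ν {l | c ≤ φ l} := by rw [hone, one_mul]
    _ = K2 * n * (c * ν {l | c ≤ φ l}) := by rw [mul_assoc]
    _ ≤ K2 * n * ∫⁻ l, φ l ∂ν := by gcongr
    _ = _ := by rw [hsw]

/-- the instantaneous restricted incidence mass -/
theorem k4_slice_inst (ν : Measure Ω) (G : Ω → ℝ → ℝ≥0∞) (K : ℝ≥0∞) (t : ℝ) (hK : ∀ l, G l t ≤ K) (S : Set Ω) :
    ∫⁻ l in S, G l t ∂ν ≤ K * ν S := by
  calc ∫⁻ l in S, G l t ∂ν ≤ ∫⁻ _ in S, K ∂ν := lintegral_mono fun l => hK l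
    _ = K * ν S := by rw [setLIntegral_const]

end T2

/-! ## T5a: original-law recovery of finite lists -/

section T5

variable {X O 𝒜 ι : Type} [MeasurableSpace X] [Fintype O] [Fintype 𝒜] [DecidableEq 𝒜] [Countable ι]

/-- base-cell averaging of the measure `m` : on every cell the mass is redistributed according to the probability `u C` -/
def k4Avg (cell : X → ι) (u : ι → Measure X) (m : Measure X) : Measure X := Measure.sum fun C => m (cell ⁻¹' {C}) • u C

theorem k4_table_max45 (w : 𝒜 → ℝ≥0∞) (D : ℕ) :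
    ∃ S : Finset 𝒜, S.card ≤ D ∧ ∀ S' : Finset 𝒜, S'.card ≤ D → ∑ a ∈ S', w a ≤ ∑ a ∈ S, w a := by
  obtain ⟨S, hS, hmax⟩ := Finset.exists_max_image
    ((Finset.univ : Finset (Finset 𝒜)).filter fun S => S.card ≤ D) (fun S => ∑ a ∈ S, w a)
    ⟨∅, by simp⟩
  refine ⟨S, (Finset.mem_filter.1 hS).2, fun S' hS' => hmax S' (by simp [hS'])⟩

theorem k4_table_one45 (μ : Measure X) (hμ : μ Set.univ = 1) (w : 𝒜 → ℝ≥0∞) (L : X → Finset 𝒜)
    (hL : ∀ a, MeasurableSet {x | a ∈ L x}) (B : ℝ≥0∞) (hB : ∀ x, ∑ a ∈ L x, w a ≤ B) :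
    ∑ a, w a * μ {x | a ∈ L x} ≤ B := by
  have h1 : ∀ a, w a * μ {x | a ∈ L x} = ∫⁻ x, Set.indicator {x | a ∈ L x} (fun _ => w a) x ∂μ := by
    intro a
    rw [lintegral_indicator_const (hL a)]
  simp only [h1]
  rw [← lintegral_finsetSum _ fun a _ => measurable_const.indicator (hL a)]
  calc ∫⁻ x, ∑ a, Set.indicator {x | a ∈ L x} (fun _ => w a) x ∂μ ≤ ∫⁻ _, B ∂μ := by
        refine lintegral_mono fun x => ?_
        refine le_trans (le_of_eq ?_) (hB x)
        rw [← Finset.sum_filter_add_sum_filter_not Finset.univ (fun a => a ∈ L x)]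
        have e1 : ∑ a ∈ Finset.univ.filter (fun a => ¬ a ∈ L x),
            Set.indicator {x | a ∈ L x} (fun _ => w a) x = 0 := by
          refine Finset.sum_eq_zero fun a ha => ?_
          exact Set.indicator_of_notMem (by simpa using ha) _
        rw [e1, add_zero]
        have e2 : Finset.univ.filter (fun a => a ∈ L x) = L x := by
          ext a
          simp
        rw [e2]
        refine Finset.sum_congr rfl fun a ha => ?_
        exact Set.indicator_of_mem (s := {x | a ∈ L x}) ha _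
    _ = B := by rw [lintegral_const, hμ, mul_one]

/-- **LEAF L-252-S4T-T5a** = (a03:cell-list-success).  `lam o a` = the joint law of (base point, observed entry `o`, output label `a`).
PROOF.  `w C o a := lam o a (cell ⁻¹' {C})`.  `Lc C o` := a maximiser of `S ↦ ∑ a ∈ S, w C o a` among the finsets of card `≤ D` (`Finset.exists_max_image` on `Finset.univ.filter (card ≤ D)`, nonempty: `∅`).
`Avg(E_Lc) = ∑ o, ∑' C, ∑ a ∈ Lc C o, w C o a` (`u C` is carried by its cell, total mass one);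
`Avg(E_L) = ∑ o, ∑' C, ∫⁻ x, ∑ a ∈ L x o, w C o a ∂(u C) ≤ ∑ o, ∑' C, ∑ a ∈ Lc C o, w C o a`;   then `hTV` twice. -/
theorem k4_table (cell : X → ι) (hcell : ∀ C, MeasurableSet (cell ⁻¹' {C})) (u : ι → Measure X)
    (hu : ∀ C, u C (cell ⁻¹' {C}) = 1) (hu' : ∀ C, u C (cell ⁻¹' {C})ᶜ = 0) (lam : O → 𝒜 → Measure X) (e : ℝ≥0∞)
    (hTV : ∀ S : O → 𝒜 → Set X, (∀ o a, MeasurableSet (S o a)) →
      (∑ o, ∑ a, lam o a (S o a) ≤ ∑ o, ∑ a, k4Avg cell u (lam o a) (S o a) + e) ∧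
      (∑ o, ∑ a, k4Avg cell u (lam o a) (S o a) ≤ ∑ o, ∑ a, lam o a (S o a) + e))
    (D : ℕ) (L : X → O → Finset 𝒜) (hL : ∀ o a, MeasurableSet {x | a ∈ L x o}) (hD : ∀ x o, (L x o).card ≤ D) :
    ∃ Lc : ι → O → Finset 𝒜, (∀ C o, (Lc C o).card ≤ D) ∧
      ∑ o, ∑ a, lam o a {x | a ∈ L x o} ≤ ∑ o, ∑ a, lam o a {x | a ∈ Lc (cell x) o} + 2 * e := by
  classical
  choose Lc hLc hmax using fun (C : ι) (o : O) =>
    k4_table_max45 (fun a => lam o a (cell ⁻¹' {C})) D
  refine ⟨Lc, hLc, ?_⟩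
  have huniv : ∀ C, u C Set.univ = 1 := by
    intro C
    rw [← measure_add_measure_compl (hcell C), hu, hu', add_zero]
  have hmc : ∀ o a, MeasurableSet {x | a ∈ Lc (cell x) o} := by
    intro o a
    have : {x | a ∈ Lc (cell x) o} = ⋃ C : ι, ⋃ _ : a ∈ Lc C o, cell ⁻¹' {C} := by
      ext x
      simp
    rw [this]
    exact MeasurableSet.iUnion fun C => MeasurableSet.iUnion fun _ => hcell C
  have havg : ∀ (o : O) (a : 𝒜) (S : Set X), MeasurableSet S →
      k4Avg cell u (lam o a) S = ∑' C, lam o a (cell ⁻¹' {C}) * u C S := by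
    intro o a S hS
    unfold k4Avg
    rw [Measure.sum_apply _ hS]
    rfl
  -- the value of `u C` on the table event
  have huc : ∀ C o a, u C {x | a ∈ Lc (cell x) o} = if a ∈ Lc C o then 1 else 0 := by
    intro C o a
    split_ifs with h
    · refine le_antisymm ((measure_mono (Set.subset_univ _)).trans (huniv C).le) ?_
      rw [← hu C]
      refine measure_mono fun x hx => ?_
      have hx' : cell x = C := hx
      show a ∈ Lc (cell x) o
      rw [hx']
      exact h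
    · refine measure_mono_null (t := (cell ⁻¹' {C})ᶜ) (fun x hx hxC => ?_) (hu' C)
      have hx' : cell x = C := hxC
      have hx2 : a ∈ Lc (cell x) o := hx
      rw [hx'] at hx2
      exact h hx2
  have key : ∑ o, ∑ a, k4Avg cell u (lam o a) {x | a ∈ L x o}
      ≤ ∑ o, ∑ a, k4Avg cell u (lam o a) {x | a ∈ Lc (cell x) o} := by
    refine Finset.sum_le_sum fun o _ => ?_
    simp only [havg o _ _ (hL o _), havg o _ _ (hmc o _)]
    rw [← Summable.tsum_finsetSum fun _ _ => ENNReal.summable,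
      ← Summable.tsum_finsetSum fun _ _ => ENNReal.summable]
    refine ENNReal.tsum_le_tsum fun C => ?_
    have h2 : ∑ a, lam o a (cell ⁻¹' {C}) * u C {x | a ∈ Lc (cell x) o}
        = ∑ a ∈ Lc C o, lam o a (cell ⁻¹' {C}) := by
      simp only [huc, mul_ite, mul_one, mul_zero]
      rw [Finset.sum_ite_mem, Finset.univ_inter]
    rw [h2]
    exact k4_table_one45 (u C) (huniv C) (fun a => lam o a (cell ⁻¹' {C})) (fun x => L x o)
      (hL o) _ fun x => hmax C o _ (hD x o)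
  calc ∑ o, ∑ a, lam o a {x | a ∈ L x o}
      ≤ ∑ o, ∑ a, k4Avg cell u (lam o a) {x | a ∈ L x o} + e := (hTV _ hL).1
    _ ≤ ∑ o, ∑ a, k4Avg cell u (lam o a) {x | a ∈ Lc (cell x) o} + e := by gcongr
    _ ≤ (∑ o, ∑ a, lam o a {x | a ∈ Lc (cell x) o} + e) + e := by
        gcongr
        exact (hTV _ hmc).2
    _ = _ := by rw [add_assoc, two_mul]

end T5

/-! ## AV: axis variation of piecewise constant densities, cell averaging -/

section AV

/-- **LEAF L-252-S4T-AV1**.  A function on the line which can only change at the points of `B`.  No measurability of `g` is needed.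
PROOF.  `g (s+h) ≠ g s` forces a point of `B` in `[s, s+h]` (resp. `[s+h, s]`), i.e. `s ∈ ⋃ b ∈ B, Icc (b - |h|) b ∪ ...`: for `h ≥ 0` the set `⋃ b, Icc (b - h) b`, for `h < 0` the set `⋃ b, Icc b (b - h)`;
measure `≤ card B * |h|`; the integrand is `≤ 2 H` there (`lintegral_mono` against the indicator, `lintegral_indicator_const`, `measure_biUnion_finset_le`, `Real.volume_Icc`). -/
theorem k4_av_line {F : Type} [NormedAddCommGroup F] (g : ℝ → F) (H : ℝ) (hH : ∀ s, ‖g s‖ ≤ H) (B : Finset ℝ)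
    (hB : ∀ s t, s ≤ t → (∀ b ∈ B, b ∉ Set.Icc s t) → g s = g t) (h : ℝ) :
    ∫⁻ s, ‖g (s + h) - g s‖ₑ ≤ ENNReal.ofReal (2 * H * B.card * |h|) := by
  have hH0 : 0 ≤ H := (norm_nonneg (g 0)).trans (hH 0)
  set S : Set ℝ := ⋃ b ∈ B, Set.Icc (b - max h 0) (b + max (-h) 0) with hS
  have hSm : MeasurableSet S := Finset.measurableSet_biUnion B fun b _ => measurableSet_Icc
  have hlen : max h 0 + max (-h) 0 = |h| := by
    rcases le_total 0 h with h0 | h0
    · rw [max_eq_left h0, max_eq_right (by linarith), abs_of_nonneg h0, add_zero]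
    · rw [max_eq_right h0, max_eq_left (by linarith), abs_of_nonpos h0, zero_add]
  have hvol : volume S ≤ (B.card : ℝ≥0∞) * ENNReal.ofReal |h| := by
    calc volume S ≤ ∑ b ∈ B, volume (Set.Icc (b - max h 0) (b + max (-h) 0)) := measure_biUnion_finset_le B _
      _ = ∑ _b ∈ B, ENNReal.ofReal |h| := by
        refine Finset.sum_congr rfl fun b _ => ?_
        rw [Real.volume_Icc]
        congr 1
        linarith
      _ = (B.card : ℝ≥0∞) * ENNReal.ofReal |h| := by rw [Finset.sum_const, nsmul_eq_mul]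
  have hpt : ∀ s, ‖g (s + h) - g s‖ₑ ≤ S.indicator (fun _ => ENNReal.ofReal (2 * H)) s := by
    intro s
    by_cases hs : s ∈ S
    · rw [Set.indicator_of_mem hs, ← ofReal_norm]
      refine ENNReal.ofReal_le_ofReal ?_
      have := norm_sub_le (g (s + h)) (g s)
      have := hH (s + h)
      have := hH s
      linarith
    · rw [Set.indicator_of_notMem hs]
      have hs' : ∀ b ∈ B, s ∉ Set.Icc (b - max h 0) (b + max (-h) 0) := by
        intro b hb hmem
        exact hs (Set.mem_biUnion hb hmem)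
      have : g (s + h) = g s := by
        rcases le_total 0 h with h0 | h0
        · refine (hB s (s + h) (by linarith) fun b hb hbm => hs' b hb ?_).symm
          rw [max_eq_left h0, max_eq_right (by linarith)]
          exact ⟨by linarith [hbm.2], by linarith [hbm.1]⟩
        · refine hB (s + h) s (by linarith) fun b hb hbm => hs' b hb ?_
          rw [max_eq_right h0, max_eq_left (by linarith)]
          exact ⟨by linarith [hbm.2], by linarith [hbm.1]⟩
      rw [this, sub_self, enorm_zero]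
  calc ∫⁻ s, ‖g (s + h) - g s‖ₑ ≤ ∫⁻ s, S.indicator (fun _ => ENNReal.ofReal (2 * H)) s := lintegral_mono hpt
    _ = ENNReal.ofReal (2 * H) * volume S := lintegral_indicator_const hSm _
    _ ≤ ENNReal.ofReal (2 * H) * ((B.card : ℝ≥0∞) * ENNReal.ofReal |h|) := by gcongr
    _ = ENNReal.ofReal (2 * H * B.card * |h|) := by
      rw [ENNReal.ofReal_mul (by positivity : (0:ℝ) ≤ 2 * H * B.card), ENNReal.ofReal_mul (by positivity : (0:ℝ) ≤ 2 * H),
        ENNReal.ofReal_natCast, mul_assoc]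

/-- **LEAF L-252-S4T-AV2**.  The sign vector of finitely many polynomials of degree `≤ D` changes only at `≤ T D` points.
PROOF.  `B := ⋃ i, if P i = 0 then ∅ else (P i).roots.toFinset` (`Polynomial.card_roots'`, `Multiset.toFinset_card_le`, `Finset.card_biUnion_le`).  If the signs at `s ≤ t` differ then `P i ≠ 0` and it has a root in `[s,t]`:
one of the values is `0`, or they have opposite signs and the intermediate value theorem applies (`intermediate_value_Icc`, `intermediate_value_Icc'`). -/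
theorem k4_av_sign {ι : Type} [Fintype ι] (P : ι → Polynomial ℝ) (D : ℕ) (hD : ∀ i, (P i).natDegree ≤ D) :
    ∃ B : Finset ℝ, B.card ≤ Fintype.card ι * D ∧ ∀ s t, s ≤ t → (∀ b ∈ B, b ∉ Set.Icc s t) →
      ∀ i, SignType.sign ((P i).eval s) = SignType.sign ((P i).eval t) := by
  classical
  refine ⟨Finset.univ.biUnion fun i => (P i).roots.toFinset, ?_, ?_⟩
  · calc (Finset.univ.biUnion fun i => (P i).roots.toFinset).card
        ≤ ∑ i : ι, ((P i).roots.toFinset).card := Finset.card_biUnion_le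
      _ ≤ ∑ _i : ι, D := Finset.sum_le_sum fun i _ =>
          ((Multiset.toFinset_card_le _).trans (Polynomial.card_roots' _)).trans (hD i)
      _ = Fintype.card ι * D := by simp
  · intro s t hst hB i
    by_cases h0 : P i = 0
    · simp [h0]
    have hno : ∀ x ∈ Set.Icc s t, (P i).eval x ≠ 0 := by
      intro x hx h
      refine hB x (Finset.mem_biUnion.2 ⟨i, Finset.mem_univ _, ?_⟩) hx
      rw [Multiset.mem_toFinset, Polynomial.mem_roots h0]
      exact h
    have hc : ContinuousOn (fun x => (P i).eval x) (Set.Icc s t) := (P i).continuous.continuousOn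
    have hs := hno s ⟨le_rfl, hst⟩
    have ht := hno t ⟨hst, le_rfl⟩
    rcases lt_or_gt_of_ne hs with hs' | hs' <;> rcases lt_or_gt_of_ne ht with ht' | ht'
    · rw [sign_neg hs', sign_neg ht']
    · obtain ⟨x, hx, hx0⟩ := intermediate_value_Icc hst hc ⟨hs'.le, ht'.le⟩
      exact absurd hx0 (hno x hx)
    · obtain ⟨x, hx, hx0⟩ := intermediate_value_Icc' hst hc ⟨ht'.le, hs'.le⟩
      exact absurd hx0 (hno x hx)
    · rw [sign_pos hs', sign_pos ht']

/-- restriction of a polynomial to an axis line -/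
theorem k4_avb_line45 {q : ℕ} (P : MvPolynomial (Fin (q + 1)) ℝ) (D : ℕ) (hD : P.totalDegree ≤ D)
    (j : Fin (q + 1)) (y : Fin q → ℝ) :
    ∃ p : Polynomial ℝ, p.natDegree ≤ D ∧
      ∀ s : ℝ, p.eval s = MvPolynomial.eval (j.insertNth s y : Fin (q + 1) → ℝ) P := by
  classical
  refine ⟨MvPolynomial.aeval (fun l => if l = j then Polynomial.X
    else Polynomial.C ((j.insertNth 0 y : Fin (q + 1) → ℝ) l)) P, ?_, fun s => ?_⟩
  · have := MvPolynomial.aeval_natDegree_le (n := 1) P hD (fun l => if l = j then Polynomial.X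
      else Polynomial.C ((j.insertNth 0 y : Fin (q + 1) → ℝ) l)) (fun l => by
        split_ifs
        · exact Polynomial.natDegree_X_le
        · rw [Polynomial.natDegree_C]; exact Nat.zero_le _)
    simpa using this
  · rw [MvPolynomial.aeval_def, MvPolynomial.polynomial_eval_eval₂, MvPolynomial.eval,
      MvPolynomial.coe_eval₂Hom]
    congr 1
    · ext r
      simp
    · funext l
      refine Fin.succAboveCases j ?_ (fun l' => ?_) l
      · simp
      · simp [Fin.succAbove_ne]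

theorem k4_avb_add45 {q : ℕ} (j : Fin (q + 1)) (s h : ℝ) (y : Fin q → ℝ) :
    (j.insertNth s y : Fin (q + 1) → ℝ) + Pi.single j h = j.insertNth (s + h) y := by
  funext l
  refine Fin.succAboveCases j ?_ (fun l' => ?_) l
  · simp
  · simp [Fin.succAbove_ne]

/-- **LEAF L-252-S4T-AV3** = (a03:axis-variation).  `f` depends only on the sign vector of `T = card ι` polynomials of total degree `≤ D`, `‖f‖ ≤ H`, `f = 0` off the box `[-R,R]^(q+1)`.
PROOF.  Restriction to the line `s ↦ Function.update x j s` : `MvPolynomial.aeval (fun i => if i = j then X else C (x i)) (P i)`, `natDegree ≤ D` by `MvPolynomial.aeval_natDegree_le`; `k4_av_sign`, `k4_av_line`.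
Fubini: `MeasurableEquiv.piFinSuccAbove (fun _ => ℝ) j` is measure preserving (`volume_preserving_piFinSuccAbove`), `lintegral_prod_le` or `lintegral_prod` (`f` is measurable: finite range, preimages of sign conditions of continuous functions);
the inner integral vanishes unless all the other coordinates are in `[-R,R]`; `Real.volume_pi_Icc` / `volume_pi`. -/
theorem k4_av_box {q : ℕ} {ι F : Type} [Fintype ι] [NormedAddCommGroup F] (P : ι → MvPolynomial (Fin (q + 1)) ℝ) (D : ℕ)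
    (hD : ∀ i, (P i).totalDegree ≤ D) (Φ : (ι → SignType) → F) (H R : ℝ) (hR : 0 ≤ R) (hH : ∀ σ, ‖Φ σ‖ ≤ H)
    (hsupp : ∀ x : Fin (q + 1) → ℝ, (∃ i, R < |x i|) → Φ (fun i => SignType.sign (MvPolynomial.eval x (P i))) = 0)
    (j : Fin (q + 1)) (h : ℝ) :
    ∫⁻ x : Fin (q + 1) → ℝ, ‖Φ (fun i => SignType.sign (MvPolynomial.eval (x + Pi.single j h) (P i)))
        - Φ (fun i => SignType.sign (MvPolynomial.eval x (P i)))‖ₑ
      ≤ ENNReal.ofReal (2 * H * (Fintype.card ι * D) * |h| * (2 * R) ^ q) := by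
  obtain ⟨f, hf⟩ : ∃ f : (Fin (q + 1) → ℝ) → F,
      f = fun x => Φ (fun i => SignType.sign (MvPolynomial.eval x (P i))) := ⟨_, rfl⟩
  have hH0 : 0 ≤ H := (norm_nonneg _).trans (hH fun _ => 0)
  have hc0 : 0 ≤ 2 * H * (Fintype.card ι * D) * |h| := by positivity
  -- the inner integral
  have hin : ∀ y : Fin q → ℝ, ∫⁻ s : ℝ, ‖f ((j.insertNth s y : Fin (q + 1) → ℝ) + Pi.single j h)
        - f (j.insertNth s y)‖ₑ
      ≤ Set.indicator (Set.Icc (fun _ => -R) (fun _ => R) : Set (Fin q → ℝ))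
          (fun _ => ENNReal.ofReal (2 * H * (Fintype.card ι * D) * |h|)) y := by
    intro y
    by_cases hy : y ∈ (Set.Icc (fun _ => -R) (fun _ => R) : Set (Fin q → ℝ))
    · rw [Set.indicator_of_mem hy]
      choose p hpd hpe using fun i => k4_avb_line45 (P i) D (hD i) j y
      obtain ⟨B, hBc, hB⟩ := k4_av_sign p D hpd
      have h1 := k4_av_line (fun s => f (j.insertNth s y)) H (fun s => by rw [hf]; exact hH _) B
        (fun s t hst hb => by
          rw [hf]
          show Φ _ = Φ _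
          congr 1
          funext i
          rw [← hpe i s, ← hpe i t]
          exact hB s t hst hb i) h
      simp only [k4_avb_add45]
      refine h1.trans (ENNReal.ofReal_le_ofReal ?_)
      have h2 : (B.card : ℝ) ≤ Fintype.card ι * D := by exact_mod_cast hBc
      have h3 : 0 ≤ 2 * H := by positivity
      exact mul_le_mul_of_nonneg_right (mul_le_mul_of_nonneg_left h2 h3) (abs_nonneg h)
    · rw [Set.indicator_of_notMem hy]
      have hex : ∃ i, R < |y i| := by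
        by_contra hcon
        simp only [not_exists, not_lt] at hcon
        exact hy ⟨fun i => (abs_le.1 (hcon i)).1, fun i => (abs_le.1 (hcon i)).2⟩
      obtain ⟨i, hi⟩ := hex
      have hz : ∀ s : ℝ, f (j.insertNth s y) = 0 := by
        intro s
        rw [hf]
        exact hsupp _ ⟨j.succAbove i, by simpa using hi⟩
      simp only [k4_avb_add45, hz]
      simp
  have mp := (volume_preserving_piFinSuccAbove (fun _ : Fin (q + 1) => ℝ) j).symm
  have e1 : ∫⁻ x : Fin (q + 1) → ℝ, ‖f (x + Pi.single j h) - f x‖ₑ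
      = ∫⁻ z : ℝ × (Fin q → ℝ), ‖f ((j.insertNth z.1 z.2 : Fin (q + 1) → ℝ) + Pi.single j h)
        - f (j.insertNth z.1 z.2)‖ₑ :=
    (mp.lintegral_comp_emb (MeasurableEquiv.measurableEmbedding _)
      (fun x => ‖f (x + Pi.single j h) - f x‖ₑ)).symm
  have hgoal : ∫⁻ x : Fin (q + 1) → ℝ, ‖f (x + Pi.single j h) - f x‖ₑ
      ≤ ENNReal.ofReal (2 * H * (Fintype.card ι * D) * |h| * (2 * R) ^ q) := by
    rw [e1, Measure.volume_eq_prod, ← lintegral_prod_swap]
    refine (lintegral_prod_le _).trans ?_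
    refine (lintegral_mono hin).trans ?_
    rw [lintegral_indicator_const measurableSet_Icc, Real.volume_Icc_pi]
    have : R - -R = 2 * R := by ring
    simp only [this, Finset.prod_const, Finset.card_univ, Fintype.card_fin]
    rw [← ENNReal.ofReal_pow (by positivity), ← ENNReal.ofReal_mul hc0]
  rw [hf] at hgoal
  exact hgoal

/-- the cell of mesh `ρ` of a point -/
def k4Cell {k : ℕ} (ρ : ℝ) (x : Fin k → ℝ) : Fin k → ℤ := fun i => ⌊x i / ρ⌋

/-- the uniform probability on a cell of mesh `ρ` -/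
def k4U {k : ℕ} (ρ : ℝ) (C : Fin k → ℤ) : Measure (Fin k → ℝ) :=
  (ENNReal.ofReal (ρ ^ k))⁻¹ • (volume : Measure (Fin k → ℝ)).restrict (k4Cell ρ ⁻¹' {C})

theorem k4_cell_eq45 {k : ℕ} (ρ : ℝ) (hρ : 0 < ρ) (C : Fin k → ℤ) :
    (k4Cell ρ ⁻¹' {C} : Set (Fin k → ℝ)) =
      Set.pi Set.univ fun i => Set.Ico (ρ * C i) (ρ * (C i + 1)) := by
  ext x
  simp only [Set.mem_preimage, Set.mem_singleton_iff, Set.mem_pi, Set.mem_univ, true_implies,
    Set.mem_Ico]
  constructor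
  · intro h i
    have h1 : ⌊x i / ρ⌋ = C i := congrFun h i
    rw [Int.floor_eq_iff, le_div_iff₀ hρ, div_lt_iff₀ hρ] at h1
    constructor <;> nlinarith [h1.1, h1.2]
  · intro h
    funext i
    show ⌊x i / ρ⌋ = C i
    rw [Int.floor_eq_iff, le_div_iff₀ hρ, div_lt_iff₀ hρ]
    constructor <;> nlinarith [(h i).1, (h i).2]

theorem k4_cell_vol45 {k : ℕ} (ρ : ℝ) (hρ : 0 < ρ) (C : Fin k → ℤ) :
    volume (k4Cell ρ ⁻¹' {C} : Set (Fin k → ℝ)) = ENNReal.ofReal (ρ ^ k) := by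
  rw [k4_cell_eq45 ρ hρ, Real.volume_pi_Ico]
  have : ∀ i : Fin k, ENNReal.ofReal (ρ * ((C i : ℝ) + 1) - ρ * (C i : ℝ)) = ENNReal.ofReal ρ := by
    intro i
    congr 1
    ring
  simp only [this, Finset.prod_const, Finset.card_univ, Fintype.card_fin]
  rw [ENNReal.ofReal_pow hρ.le]

theorem k4_cell_meas45 {k : ℕ} (ρ : ℝ) (hρ : 0 < ρ) (C : Fin k → ℤ) :
    MeasurableSet (k4Cell ρ ⁻¹' {C} : Set (Fin k → ℝ)) := by
  rw [k4_cell_eq45 ρ hρ]
  exact MeasurableSet.univ_pi fun i => measurableSet_Ico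

/-- **LEAF L-252-S4T-AV4a**.  The uniform laws on the cells satisfy the hypotheses of `k4_table`.
PROOF.  `k4Cell ρ ⁻¹' {C} = Set.pi univ fun i => Ico (ρ C i) (ρ (C i + 1))` (`Int.floor_eq_iff`, `div_lt_iff₀`, `le_div_iff₀`), `Real.volume_pi_Ico`. -/
theorem k4_cell_unif {k : ℕ} (ρ : ℝ) (hρ : 0 < ρ) (C : Fin k → ℤ) :
    MeasurableSet (k4Cell ρ ⁻¹' {C} : Set (Fin k → ℝ)) ∧ k4U ρ C (k4Cell ρ ⁻¹' {C}) = 1 ∧ k4U ρ C (k4Cell ρ ⁻¹' {C})ᶜ = 0 := by
  have hm := k4_cell_meas45 ρ hρ C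
  have hpos : ENNReal.ofReal (ρ ^ k) ≠ 0 := by
    rw [Ne, ENNReal.ofReal_eq_zero, not_le]
    positivity
  refine ⟨hm, ?_, ?_⟩
  · unfold k4U
    rw [Measure.smul_apply, Measure.restrict_apply hm, Set.inter_self, k4_cell_vol45 ρ hρ,
      smul_eq_mul, ENNReal.inv_mul_cancel hpos ENNReal.ofReal_ne_top]
  · unfold k4U
    rw [Measure.smul_apply, Measure.restrict_apply hm.compl, Set.compl_inter_self, measure_empty,
      smul_zero]

theorem k4_avc_step45 {k : ℕ} (f : (Fin k → ℝ) → ℝ) (hf : Measurable f) (w v : Fin k → ℝ) :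
    ∫⁻ x, ‖f (x + (v + w)) - f x‖ₑ ≤ (∫⁻ x, ‖f (x + v) - f x‖ₑ) + ∫⁻ x, ‖f (x + w) - f x‖ₑ := by
  have hm1 : Measurable fun x => ‖f ((x + w) + v) - f (x + w)‖ₑ :=
    ((hf.comp ((measurable_id.add_const w).add_const _)).sub
      (hf.comp (measurable_id.add_const w))).enorm
  calc ∫⁻ x, ‖f (x + (v + w)) - f x‖ₑ
      ≤ ∫⁻ x, (‖f ((x + w) + v) - f (x + w)‖ₑ + ‖f (x + w) - f x‖ₑ) := by
        refine lintegral_mono fun x => ?_
        have e : x + (v + w) = (x + w) + v := by abel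
        rw [e]
        calc ‖f ((x + w) + v) - f x‖ₑ
            = ‖(f ((x + w) + v) - f (x + w)) + (f (x + w) - f x)‖ₑ := by
              rw [sub_add_sub_cancel]
          _ ≤ _ := enorm_add_le _ _
    _ = (∫⁻ x, ‖f ((x + w) + v) - f (x + w)‖ₑ) + ∫⁻ x, ‖f (x + w) - f x‖ₑ :=
        lintegral_add_left hm1 _
    _ = (∫⁻ x, ‖f (x + v) - f x‖ₑ) + ∫⁻ x, ‖f (x + w) - f x‖ₑ := by
        rw [lintegral_add_right_eq_self (fun x => ‖f (x + v) - f x‖ₑ) w]

/-- telescoping over the coordinates -/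
theorem k4_avc_shift45 {k : ℕ} (f : (Fin k → ℝ) → ℝ) (hf : Measurable f) (V : ℝ)
    (hV : ∀ (j : Fin k) (h : ℝ), ∫⁻ x, ‖f (x + Pi.single j h) - f x‖ₑ ≤ ENNReal.ofReal (V * |h|))
    (h : Fin k → ℝ) (s : Finset (Fin k)) :
    ∫⁻ x, ‖f (x + ∑ j ∈ s, Pi.single j (h j)) - f x‖ₑ ≤ ∑ j ∈ s, ENNReal.ofReal (V * |h j|) := by
  induction s using Finset.induction_on with
  | empty => simp
  | insert a s ha ih =>
    rw [Finset.sum_insert ha, Finset.sum_insert ha]
    exact (k4_avc_step45 f hf _ _).trans (add_le_add (hV a (h a)) ih)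

theorem k4_avc_shiftB45 {k : ℕ} (f : (Fin k → ℝ) → ℝ) (hf : Measurable f) (V : ℝ) (hV0 : 0 ≤ V)
    (hV : ∀ (j : Fin k) (h : ℝ), ∫⁻ x, ‖f (x + Pi.single j h) - f x‖ₑ ≤ ENNReal.ofReal (V * |h|))
    (ρ : ℝ) (h : Fin k → ℝ) (hh : ∀ j, |h j| ≤ ρ) :
    ∫⁻ x, ‖f (x + h) - f x‖ₑ ≤ ENNReal.ofReal (k * V * ρ) := by
  have h1 := k4_avc_shift45 f hf V hV h Finset.univ
  rw [Finset.univ_sum_single] at h1
  refine h1.trans ?_
  calc ∑ j, ENNReal.ofReal (V * |h j|) ≤ ∑ _j : Fin k, ENNReal.ofReal (V * ρ) :=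
        Finset.sum_le_sum fun j _ =>
          ENNReal.ofReal_le_ofReal (mul_le_mul_of_nonneg_left (hh j) hV0)
    _ = ENNReal.ofReal (k * V * ρ) := by
        rw [Finset.sum_const, Finset.card_univ, Fintype.card_fin, nsmul_eq_mul, mul_assoc,
          ENNReal.ofReal_mul (Nat.cast_nonneg k), ENNReal.ofReal_natCast]

theorem k4_avc_pt45 (a b : ℝ) : ENNReal.ofReal a ≤ ENNReal.ofReal b + ‖b - a‖ₑ := by
  rw [Real.enorm_eq_ofReal_abs]
  refine le_trans (ENNReal.ofReal_le_ofReal ?_) ENNReal.ofReal_add_le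
  have := neg_abs_le (b - a)
  linarith

/-- one cell -/
theorem k4_avc_one45 {k : ℕ} (f : (Fin k → ℝ) → ℝ) (hf : Measurable f) (Q A : Set (Fin k → ℝ))
    (hAQ : A ⊆ Q) (c : ℝ≥0∞) (hc0 : c ≠ 0) (hc : c ≠ ⊤) (hQ : volume Q = c) :
    (∫⁻ x in A, ENNReal.ofReal (f x) ≤ (∫⁻ x in Q, ENNReal.ofReal (f x)) * (c⁻¹ * volume A)
        + c⁻¹ * ∫⁻ x in Q, ∫⁻ x' in Q, ‖f x' - f x‖ₑ) ∧
    ((∫⁻ x in Q, ENNReal.ofReal (f x)) * (c⁻¹ * volume A) ≤ (∫⁻ x in A, ENNReal.ofReal (f x))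
        + c⁻¹ * ∫⁻ x in Q, ∫⁻ x' in Q, ‖f x' - f x‖ₑ) := by
  have hφ : Measurable fun x => ENNReal.ofReal (f x) := hf.ennreal_ofReal
  have hD : ∫⁻ x in A, ∫⁻ x' in Q, ‖f x' - f x‖ₑ ≤ ∫⁻ x in Q, ∫⁻ x' in Q, ‖f x' - f x‖ₑ :=
    lintegral_mono_set hAQ
  have e1 : ∫⁻ x in A, ENNReal.ofReal (f x) = c⁻¹ * ∫⁻ x in A, ∫⁻ _x' in Q, ENNReal.ofReal (f x) := by
    simp only [setLIntegral_const, hQ]
    rw [lintegral_mul_const _ hφ, mul_comm, mul_assoc, ENNReal.mul_inv_cancel hc0 hc, mul_one]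
  have e2 : (∫⁻ x in Q, ENNReal.ofReal (f x)) * (c⁻¹ * volume A)
      = c⁻¹ * ∫⁻ _x in A, ∫⁻ x' in Q, ENNReal.ofReal (f x') := by
    rw [setLIntegral_const]
    ring
  constructor
  · rw [e1, e2, ← mul_add]
    gcongr
    calc ∫⁻ x in A, ∫⁻ _x' in Q, ENNReal.ofReal (f x)
        ≤ ∫⁻ x in A, ∫⁻ x' in Q, (ENNReal.ofReal (f x') + ‖f x' - f x‖ₑ) :=
          lintegral_mono fun x => lintegral_mono fun x' => k4_avc_pt45 _ _
      _ = ∫⁻ x in A, ((∫⁻ x' in Q, ENNReal.ofReal (f x')) + ∫⁻ x' in Q, ‖f x' - f x‖ₑ) := by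
          refine lintegral_congr fun x => ?_
          exact lintegral_add_left hφ _
      _ = (∫⁻ _x in A, ∫⁻ x' in Q, ENNReal.ofReal (f x')) + ∫⁻ x in A, ∫⁻ x' in Q, ‖f x' - f x‖ₑ :=
          lintegral_add_left measurable_const _
      _ ≤ _ := by gcongr
  · rw [e1, e2, ← mul_add]
    gcongr
    calc ∫⁻ _x in A, ∫⁻ x' in Q, ENNReal.ofReal (f x')
        ≤ ∫⁻ x in A, ∫⁻ x' in Q, (ENNReal.ofReal (f x) + ‖f x' - f x‖ₑ) := by
          refine lintegral_mono fun x => lintegral_mono fun x' => ?_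
          have := k4_avc_pt45 (f x') (f x)
          rwa [← enorm_neg, neg_sub] at this
      _ = ∫⁻ x in A, ((∫⁻ _x' in Q, ENNReal.ofReal (f x)) + ∫⁻ x' in Q, ‖f x' - f x‖ₑ) := by
          refine lintegral_congr fun x => ?_
          exact lintegral_add_left measurable_const _
      _ = (∫⁻ x in A, ∫⁻ _x' in Q, ENNReal.ofReal (f x)) + ∫⁻ x in A, ∫⁻ x' in Q, ‖f x' - f x‖ₑ := by
          refine lintegral_add_left ?_ _
          simp only [setLIntegral_const]
          exact hφ.mul_const _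
      _ ≤ _ := by gcongr

/-- the total error -/
theorem k4_avc_err45 {k : ℕ} (ρ : ℝ) (hρ : 0 < ρ) (f : (Fin k → ℝ) → ℝ) (hf : Measurable f) (V : ℝ) (hV0 : 0 ≤ V)
    (hV : ∀ (j : Fin k) (h : ℝ), ∫⁻ x, ‖f (x + Pi.single j h) - f x‖ₑ ≤ ENNReal.ofReal (V * |h|)) :
    ∑' C : Fin k → ℤ, (ENNReal.ofReal (ρ ^ k))⁻¹ *
      ∫⁻ x in k4Cell ρ ⁻¹' {C}, ∫⁻ x' in k4Cell ρ ⁻¹' {C}, ‖f x' - f x‖ₑ
      ≤ ENNReal.ofReal (2 ^ k * k * V * ρ) := by
  obtain ⟨Bx, hBx⟩ : ∃ Bx : Set (Fin k → ℝ), Bx = Set.pi Set.univ fun _ => Set.Icc (-ρ) ρ := ⟨_, rfl⟩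
  have hBm : MeasurableSet Bx := by
    rw [hBx]
    exact MeasurableSet.univ_pi fun i => measurableSet_Icc
  have hBv : volume Bx = ENNReal.ofReal ((2 * ρ) ^ k) := by
    rw [hBx, Set.pi_univ_Icc, Real.volume_Icc_pi]
    have : ρ - -ρ = 2 * ρ := by ring
    simp only [this, Finset.prod_const, Finset.card_univ, Fintype.card_fin]
    rw [ENNReal.ofReal_pow (by positivity)]
  have h1 : ∀ C : Fin k → ℤ, ∫⁻ x in k4Cell ρ ⁻¹' {C}, ∫⁻ x' in k4Cell ρ ⁻¹' {C}, ‖f x' - f x‖ₑ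
      ≤ ∫⁻ x in k4Cell ρ ⁻¹' {C}, ∫⁻ h in Bx, ‖f (x + h) - f x‖ₑ := by
    intro C
    have hQ := k4_cell_meas45 ρ hρ C
    refine setLIntegral_mono' hQ fun x hx => ?_
    rw [← lintegral_indicator hQ, ← lintegral_indicator hBm,
      ← lintegral_add_left_eq_self _ x]
    refine lintegral_mono fun h => ?_
    by_cases hxh : x + h ∈ k4Cell ρ ⁻¹' {C}
    · have hh : h ∈ Bx := by
        rw [hBx]
        intro i _
        rw [k4_cell_eq45 ρ hρ] at hx hxh
        have a1 := hx i (Set.mem_univ i)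
        have a2 := hxh i (Set.mem_univ i)
        simp only [Pi.add_apply, Set.mem_Ico] at a1 a2
        constructor <;> nlinarith [a1.1, a1.2, a2.1, a2.2]
      rw [Set.indicator_of_mem hxh, Set.indicator_of_mem hh]
    · rw [Set.indicator_of_notMem hxh]
      exact bot_le
  have hdisj : Pairwise (Function.onFun Disjoint fun C : Fin k → ℤ =>
      (k4Cell ρ ⁻¹' {C} : Set (Fin k → ℝ))) := by
    intro C C' hCC
    refine Set.disjoint_left.2 fun x hx hx' => hCC ?_
    have a1 : k4Cell ρ x = C := hx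
    have a2 : k4Cell ρ x = C' := hx'
    rw [← a1, a2]
  have hun : (⋃ C : Fin k → ℤ, (k4Cell ρ ⁻¹' {C} : Set (Fin k → ℝ))) = Set.univ := by
    ext x
    simp
  have hmeas : Measurable (Function.uncurry fun (x h : Fin k → ℝ) => ‖f (x + h) - f x‖ₑ) :=
    ((hf.comp (measurable_fst.add measurable_snd)).sub (hf.comp measurable_fst)).enorm
  rw [ENNReal.tsum_mul_left]
  calc (ENNReal.ofReal (ρ ^ k))⁻¹ * ∑' C : Fin k → ℤ,
        ∫⁻ x in k4Cell ρ ⁻¹' {C}, ∫⁻ x' in k4Cell ρ ⁻¹' {C}, ‖f x' - f x‖ₑ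
      ≤ (ENNReal.ofReal (ρ ^ k))⁻¹ * ∑' C : Fin k → ℤ,
        ∫⁻ x in k4Cell ρ ⁻¹' {C}, ∫⁻ h in Bx, ‖f (x + h) - f x‖ₑ := by
        exact mul_le_mul' le_rfl (ENNReal.tsum_le_tsum h1)
    _ = (ENNReal.ofReal (ρ ^ k))⁻¹ * ∫⁻ x, ∫⁻ h in Bx, ‖f (x + h) - f x‖ₑ := by
        rw [← lintegral_iUnion (fun C => k4_cell_meas45 ρ hρ C) hdisj, hun, Measure.restrict_univ]
    _ = (ENNReal.ofReal (ρ ^ k))⁻¹ * ∫⁻ h in Bx, ∫⁻ x, ‖f (x + h) - f x‖ₑ := by
        rw [lintegral_lintegral_swap hmeas.aemeasurable]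
    _ ≤ (ENNReal.ofReal (ρ ^ k))⁻¹ * ∫⁻ _h in Bx, ENNReal.ofReal (k * V * ρ) := by
        refine mul_le_mul' le_rfl (setLIntegral_mono' hBm fun h hh => ?_)
        refine k4_avc_shiftB45 f hf V hV0 hV ρ h fun j => ?_
        rw [hBx] at hh
        exact abs_le.2 (hh j (Set.mem_univ j))
    _ = ENNReal.ofReal (2 ^ k * k * V * ρ) := by
        rw [setLIntegral_const, hBv, ← ENNReal.ofReal_inv_of_pos (by positivity),
          ← ENNReal.ofReal_mul (by positivity), ← ENNReal.ofReal_mul (by positivity)]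
        congr 1
        rw [mul_pow]
        field_simp

/-- **LEAF L-252-S4T-AV4b** = (a03:joint-tv), one density.  Axis variation `≤ V |h|` gives `‖f - F_ρ f‖_{L¹} ≤ 2^k k V ρ`, in the form needed by `k4_table`.
PROOF.  `Avg` has the density `F x = ρ^{-k} ∫_{cell x} f`.  `|m S - Avg S| ≤ ∫ |f - F| ≤ ρ^{-k} ∫_x ∫_{x' ∈ cell x} |f x - f x'| ≤ ρ^{-k} ∫_{h ∈ [-ρ,ρ]^k} ∫_x |f x - f (x + h)|`
(Tonelli, translation invariance), and `∫_x |f x - f (x + h)| ≤ ∑_j V |h_j| ≤ k V ρ` (telescoping one coordinate at a time + translation invariance). -/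
theorem k4_av_cell {k : ℕ} (ρ : ℝ) (hρ : 0 < ρ) (f : (Fin k → ℝ) → ℝ) (hf0 : ∀ x, 0 ≤ f x) (hf : Measurable f) (V : ℝ) (hV0 : 0 ≤ V)
    (hV : ∀ (j : Fin k) (h : ℝ), ∫⁻ x, ‖f (x + Pi.single j h) - f x‖ₑ ≤ ENNReal.ofReal (V * |h|)) (S : Set (Fin k → ℝ)) (hS : MeasurableSet S) :
    (volume.withDensity fun x => ENNReal.ofReal (f x)) S
        ≤ k4Avg (k4Cell ρ) (k4U ρ) (volume.withDensity fun x => ENNReal.ofReal (f x)) S + ENNReal.ofReal (2 ^ k * k * V * ρ) ∧
      k4Avg (k4Cell ρ) (k4U ρ) (volume.withDensity fun x => ENNReal.ofReal (f x)) S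
        ≤ (volume.withDensity fun x => ENNReal.ofReal (f x)) S + ENNReal.ofReal (2 ^ k * k * V * ρ) := by
  have hQ := fun C : Fin k → ℤ => k4_cell_meas45 ρ hρ C
  have hc0 : ENNReal.ofReal (ρ ^ k) ≠ 0 := by
    rw [Ne, ENNReal.ofReal_eq_zero, not_le]
    positivity
  have hdisj : Pairwise (Function.onFun Disjoint fun C : Fin k → ℤ =>
      (S ∩ k4Cell ρ ⁻¹' {C} : Set (Fin k → ℝ))) := by
    intro C C' hCC
    refine Set.disjoint_left.2 fun x hx hx' => hCC ?_
    have a1 : k4Cell ρ x = C := hx.2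
    have a2 : k4Cell ρ x = C' := hx'.2
    rw [← a1, a2]
  have hun : (⋃ C : Fin k → ℤ, (S ∩ k4Cell ρ ⁻¹' {C} : Set (Fin k → ℝ))) = S := by
    ext x
    simp
  have eS : (volume.withDensity fun x => ENNReal.ofReal (f x)) S
      = ∑' C : Fin k → ℤ, ∫⁻ x in S ∩ k4Cell ρ ⁻¹' {C}, ENNReal.ofReal (f x) := by
    rw [withDensity_apply _ hS, ← lintegral_iUnion (fun C => hS.inter (hQ C)) hdisj, hun]
  have eA : k4Avg (k4Cell ρ) (k4U ρ) (volume.withDensity fun x => ENNReal.ofReal (f x)) S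
      = ∑' C : Fin k → ℤ, (∫⁻ x in k4Cell ρ ⁻¹' {C}, ENNReal.ofReal (f x)) *
          ((ENNReal.ofReal (ρ ^ k))⁻¹ * volume (S ∩ k4Cell ρ ⁻¹' {C})) := by
    unfold k4Avg
    rw [Measure.sum_apply _ hS]
    refine tsum_congr fun C => ?_
    rw [Measure.smul_apply, withDensity_apply _ (hQ C)]
    unfold k4U
    rw [Measure.smul_apply, Measure.restrict_apply hS]
    rfl
  have hone := fun C : Fin k → ℤ => k4_avc_one45 f hf (k4Cell ρ ⁻¹' {C}) (S ∩ k4Cell ρ ⁻¹' {C})
    Set.inter_subset_right _ hc0 ENNReal.ofReal_ne_top (k4_cell_vol45 ρ hρ C)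
  have herr := k4_avc_err45 ρ hρ f hf V hV0 hV
  rw [eS, eA]
  constructor
  · calc _ ≤ ∑' C : Fin k → ℤ, _ := ENNReal.tsum_le_tsum fun C => (hone C).1
      _ = _ := ENNReal.tsum_add
      _ ≤ _ := by gcongr
  · calc _ ≤ ∑' C : Fin k → ℤ, _ := ENNReal.tsum_le_tsum fun C => (hone C).2
      _ = _ := ENNReal.tsum_add
      _ ≤ _ := by gcongr

end AV

/-! ## QE: explicit quantifier elimination on an interval -/

section QE

/-- one-sided form: an upper bound for a quadratic on an interval follows from the end points and (if concave) the vertex -/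
theorem k4_qe_up (α β γ c a b t : ℝ) (hat : a ≤ t) (htb : t ≤ b)
    (ha : α * a ^ 2 + β * a + γ ≤ c) (hb : α * b ^ 2 + β * b + γ ≤ c)
    (hv : α < 0 → -β / (2 * α) ∈ Set.Icc a b → α * (-β / (2 * α)) ^ 2 + β * (-β / (2 * α)) + γ ≤ c) :
    α * t ^ 2 + β * t + γ ≤ c := by
  rcases le_or_gt 0 α with hα | hα
  · rcases eq_or_lt_of_le (hat.trans htb) with hab | hab
    · have e : t = a := le_antisymm (by linarith) hat
      rw [e]
      exact ha
    · have h1 : 0 ≤ α * ((b - t) * (t - a)) * (b - a) :=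
        mul_nonneg (mul_nonneg hα (mul_nonneg (sub_nonneg.2 htb) (sub_nonneg.2 hat))) (sub_pos.2 hab).le
      have h2 : (b - a) * (α * t ^ 2 + β * t + γ) ≤ (b - a) * c := by
        have e : (b - t) * (α * a ^ 2 + β * a + γ) + (t - a) * (α * b ^ 2 + β * b + γ)
            - (b - a) * (α * t ^ 2 + β * t + γ) = α * ((b - t) * (t - a)) * (b - a) := by ring
        have h3 := mul_le_mul_of_nonneg_left ha (sub_nonneg.2 htb)
        have h4 := mul_le_mul_of_nonneg_left hb (sub_nonneg.2 hat)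
        have e2 : (b - t) * c + (t - a) * c = (b - a) * c := by ring
        linarith
      exact le_of_mul_le_mul_left h2 (sub_pos.2 hab)
  · obtain ⟨v, hvd⟩ : ∃ v, v = -β / (2 * α) := ⟨_, rfl⟩
    have hβ : β = -2 * α * v := by
      have hα0 : α ≠ 0 := hα.ne
      rw [hvd]
      field_simp
    rw [← hvd] at hv
    rcases lt_or_ge v a with h1 | h1
    · have h2 : α * ((t - a) * (t + a - 2 * v)) ≤ 0 :=
        mul_nonpos_of_nonpos_of_nonneg hα.le (mul_nonneg (by linarith) (by linarith))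
      have e : α * t ^ 2 + β * t + γ = α * a ^ 2 + β * a + γ + α * ((t - a) * (t + a - 2 * v)) := by
        rw [hβ]
        ring
      linarith
    · rcases lt_or_ge b v with h2 | h2
      · have h3 : α * ((b - t) * (2 * v - t - b)) ≤ 0 :=
          mul_nonpos_of_nonpos_of_nonneg hα.le (mul_nonneg (by linarith) (by linarith))
        have e : α * t ^ 2 + β * t + γ = α * b ^ 2 + β * b + γ + α * ((b - t) * (2 * v - t - b)) := by
          rw [hβ]
          ring
        linarith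
      · have h3 := hv hα ⟨h1, h2⟩
        have h4 : α * (t - v) ^ 2 ≤ 0 := mul_nonpos_of_nonpos_of_nonneg hα.le (sq_nonneg _)
        have e : α * t ^ 2 + β * t + γ = α * v ^ 2 + β * v + γ + α * (t - v) ^ 2 := by
          rw [hβ]
          ring
        linarith

/-- **LEAF L-252-S4T-QE1**.  `∀ t ∈ [a,b], |α t² + β t + γ| ≤ c` is a condition on the end points and the vertex.
PROOF.  `→` trivial.  `←` : `α = 0`: affine, convex combination of the end values.  `α ≠ 0`: WLOG via the sign of `α`; `q` (or `-q`) is convex so `≤ max` of the end values; the lower bound: `q t ≥ q(vertex)` always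
(`q t - q v = α (t - v)²`), and if the vertex is outside `[a,b]` then `q` is monotone on `[a,b]`. -/
theorem k4_qe_quad (α β γ c a b : ℝ) (hab : a ≤ b) :
    (∀ t ∈ Set.Icc a b, |α * t ^ 2 + β * t + γ| ≤ c) ↔
      |α * a ^ 2 + β * a + γ| ≤ c ∧ |α * b ^ 2 + β * b + γ| ≤ c ∧
        (α ≠ 0 → -β / (2 * α) ∈ Set.Icc a b → |α * (-β / (2 * α)) ^ 2 + β * (-β / (2 * α)) + γ| ≤ c) := by
  constructor
  · intro h
    exact ⟨h a ⟨le_refl _, hab⟩, h b ⟨hab, le_refl _⟩, fun _ hv => h _ hv⟩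
  · rintro ⟨ha, hb, hv⟩ t ⟨hat, htb⟩
    rw [abs_le] at ha hb ⊢
    constructor
    · have h1 : -α * t ^ 2 + -β * t + -γ ≤ c := by
        refine k4_qe_up (-α) (-β) (-γ) c a b t hat htb (by linarith [ha.1]) (by linarith [hb.1])
          (fun hα hm => ?_)
        have hα' : α ≠ 0 := by
          intro h0
          rw [h0] at hα
          simp at hα
        have e : - -β / (2 * -α) = -β / (2 * α) := by
          rw [mul_neg, div_neg, neg_div, neg_div, neg_neg]
        rw [e] at hm ⊢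
        have h2 := (abs_le.1 (hv hα' hm)).1
        linarith
      linarith
    · exact k4_qe_up α β γ c a b t hat htb ha.2 hb.2 (fun hα hm => (abs_le.1 (hv hα.ne hm)).2)

/-- **LEAF L-252-S4T-QE2**.  `∃ t ∈ [a,b], |β t + γ| ≥ c` is a condition on the end points (convexity of `|affine|`). -/
theorem k4_qe_aff (β γ c a b : ℝ) (hab : a ≤ b) :
    (∃ t ∈ Set.Icc a b, c ≤ |β * t + γ|) ↔ c ≤ |β * a + γ| ∨ c ≤ |β * b + γ| := by
  constructor
  · rintro ⟨t, ⟨hat, htb⟩, ht⟩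
    by_contra hcon
    rw [not_or, not_le, not_le, abs_lt, abs_lt] at hcon
    obtain ⟨⟨a1, a2⟩, b1, b2⟩ := hcon
    have h1 : |β * t + γ| < c := by
      rw [abs_lt]
      rcases le_total 0 β with hβ | hβ
      · have h2 := mul_le_mul_of_nonneg_left hat hβ
        have h3 := mul_le_mul_of_nonneg_left htb hβ
        constructor <;> linarith
      · have h2 := mul_le_mul_of_nonpos_left hat hβ
        have h3 := mul_le_mul_of_nonpos_left htb hβ
        constructor <;> linarith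
    exact absurd ht (not_le.2 h1)
  · rintro (h | h)
    · exact ⟨a, ⟨le_refl _, hab⟩, h⟩
    · exact ⟨b, ⟨hab, le_refl _⟩, h⟩

end QE

end

end Claimed.Agent.R252
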